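import Vale.Agent.P330.H241.Main2

/-!
P330, the PCP-for-PPAD conjecture: which constants and which circuits a reduction can use.

For every `ε > 0` a polynomial time algorithm finds, for every generalized circuit with the set
of gates `T`, an assignment that `ε`-satisfies all gates if `ε ≥ 1/5`, all gates but the Scale, Add
and Subtract gates if `ε ≥ 1/10`, and for every `ε` all gates but the smallest of four classes, so
at least `|T| / 2` gates. Hence a reduction as in the conjecture with `ε ≥ 1/5` or `δ ≥ 1/2`, or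
with circuits in which one of the classes has at most `δ |T|` gates, exists only if End-of-Line is
in FP.
-/

namespace Vale.Agent.Results.P330.EasyRegion

open Vale.Agent.P330

/-- For every `ε > 0` there is a number `C` such that

* a polynomial time algorithm `F` maps every generalized circuit `G` to an assignment whose code
  is at most `C` times as long as the code of `G`, which `ε`-satisfies all gates if `1/5 ≤ ε`,
  leaves at most as many gates unsatisfied as there are Scale, Add and Subtract gates if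
  `1/10 ≤ ε`, and at most `G.bad ≤ |T| / 2` gates for every `ε`;
* for every `δ > 0` and every polynomial `p` of degree at least `2` (or with `C m ≤ p m` for all
  large `m`): if some `R`, `D` are as in the conjecture for the constants `ε`, `δ`, `p`, and for
  every `I` one has `(R I).bad ≤ δ |T|`, or `1/10 ≤ ε` and at most `δ |T|` gates of `R I` are
  Scale, Add or Subtract gates, then End-of-Line is in FP; and if `1/5 ≤ ε` or `1/2 ≤ δ`, then
  both forms of the conjecture for the constants `ε`, `δ`, `p` are equivalent to End-of-Line being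
  in FP. -/
theorem result (ε : ℝ) (hε : 0 < ε) : ∃ C : ℕ,
    (∃ F : GenCircuit → List ℚ, PolyTime circuitW (listW ratW) F ∧ ∀ G : GenCircuit,
      IsAssignment G (F G) ∧ (listW ratW (F G)).length ≤ C * (circuitW G).length ∧
      (1 / 5 ≤ ε → ∀ g ∈ G.gates, g.Sat ε (val (F G))) ∧
      (1 / 10 ≤ ε → G.gates.length ≤ numSat ε G (F G) + G.count Gate.isArith3) ∧
      G.gates.length ≤ numSat ε G (F G) + G.bad ∧ 2 * G.bad ≤ G.gates.length) ∧
    ∀ (δ : ℝ) (p : Polynomial ℕ), 0 < δ →
      (2 ≤ p.natDegree ∨ ∀ᶠ m in Filter.atTop, C * m ≤ p.eval m) →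
      (∀ (R : EndOfLine → GenCircuit) (D : EndOfLine × List ℚ → List Bool),
        IsReduction ε δ p R D →
        (∀ I, ((R I).bad : ℝ) ≤ δ * (R I).gates.length ∨
          1 / 10 ≤ ε ∧ ((R I).count Gate.isArith3 : ℝ) ≤ δ * (R I).gates.length) →
          EndOfLineInFP) ∧
      (1 / 5 ≤ ε ∨ 1 / 2 ≤ δ →
        (PolySizePCP ε δ p ↔ EndOfLineInFP) ∧ (PCPforPPAD ε δ p ↔ EndOfLineInFP)) := by
  obtain ⟨C, F, hC, hF, hG⟩ := exists_alg2 hε
  refine ⟨C, ⟨F, polyTime_of_PT hF enc_circuit enc_listRat, fun G =>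
    ⟨(hG G).1, (hG G).2.1, (hG G).2.2.1, (hG G).2.2.2.2, (hG G).2.2.2.1, two_mul_bad_le G⟩⟩,
    fun δ p hδ hp => ?_⟩
  have hp' : ∀ᶠ m in Filter.atTop, C * m ≤ p.eval m := by
    rcases hp with h | h
    · exact eventually_of_degree h C
    · exact h
  obtain ⟨F', hF', hacc⟩ := exists_solver (ε := ε) (δ := δ) (p := p) hF (fun G => (hG G).1)
    (fun G => (hG G).2.1) hp'
  have key : ∀ (R : EndOfLine → GenCircuit) (D : EndOfLine × List ℚ → List Bool),
      IsReduction ε δ p R D →
      (∀ I, (1 - δ) * (R I).gates.length ≤ numSat ε (R I) (F (R I))) → EndOfLineInFP :=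
    fun R D hRD h => inFP_of_solver hRD hF' fun I => hacc _ (hRD.2.2 I).1 (h I)
  have key2 : ∀ G : GenCircuit, (G.bad : ℝ) ≤ δ * G.gates.length →
      (1 - δ) * G.gates.length ≤ numSat ε G (F G) := by
    intro G h
    have h1 : (G.gates.length : ℝ) ≤ numSat ε G (F G) + G.bad := by
      exact_mod_cast (hG G).2.2.2.1
    linarith
  have key2' : ∀ G : GenCircuit, 1 / 10 ≤ ε → (G.count Gate.isArith3 : ℝ) ≤ δ * G.gates.length →
      (1 - δ) * G.gates.length ≤ numSat ε G (F G) := by
    intro G h10 h
    have h1 : (G.gates.length : ℝ) ≤ numSat ε G (F G) + G.count Gate.isArith3 := by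
      exact_mod_cast (hG G).2.2.2.2 h10
    linarith
  have key3 : 1 / 5 ≤ ε ∨ 1 / 2 ≤ δ → ∀ G : GenCircuit,
      (1 - δ) * G.gates.length ≤ numSat ε G (F G) := by
    rintro (h | h) G
    · have h1 : (G.gates.length : ℝ) ≤ numSat ε G (F G) := by
        exact_mod_cast le_numSat_of_all ((hG G).2.2.1 h)
      have h2 : (0 : ℝ) ≤ G.gates.length := Nat.cast_nonneg _
      nlinarith
    · refine key2 G ?_
      have h1 : (2 : ℝ) * G.bad ≤ G.gates.length := by exact_mod_cast two_mul_bad_le G
      have h2 : (0 : ℝ) ≤ G.gates.length := Nat.cast_nonneg _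
      nlinarith
  refine ⟨fun R D hRD h => key R D hRD fun I => ?_, fun h => ?_⟩
  · rcases h I with h | ⟨h, h'⟩
    · exact key2 _ h
    · exact key2' _ h h'
  have h1 : PolySizePCP ε δ p → EndOfLineInFP := fun ⟨R, D, hRD⟩ =>
    key R D hRD fun I => key3 h _
  have h2 : PCPforPPAD ε δ p → PolySizePCP ε δ p := fun ⟨R, D, hRD, _⟩ => ⟨R, D, hRD⟩
  have h3 : EndOfLineInFP → PCPforPPAD ε δ p := reduction_of_inFP hε hδ hC hp'
  exact ⟨⟨h1, fun h => h2 (h3 h)⟩, ⟨fun h => h1 (h2 h), h3⟩⟩

end Vale.Agent.Results.P330.EasyRegion
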