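import Vale.Agent.P330.Q.Main

/-!
# P330: the weaker form of the PCP-for-PPAD conjecture

There are constants `ε, δ > 0` and polynomial time algorithms `R`, `D` such that for every instance
`I` of End-of-Line the generalized circuit `R I` has an acceptable assignment, and `D` maps every
assignment of `R I` which `ε`-satisfies at least the fraction `1 - δ` of the gates to a solution of
`I`.  See `Vale/Agent/P330/H241/Defs.lean` for the definitions.
-/

namespace Vale.Agent.Results.P330.PolySize

open Vale.Agent.P330

/-- **The weaker form (polynomial size) of the PCP-for-PPAD conjecture**, for all polynomials `p`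
of degree at least `2` bounding the length of the assignments. -/
theorem result : ∃ ε δ : ℚ, 0 < ε ∧ ε < 1 ∧ 0 < δ ∧ δ < 1 ∧
    ∀ p : Polynomial ℕ, 2 ≤ p.natDegree → PolySizePCP ε δ p :=
  Q.poly_size

end Vale.Agent.Results.P330.PolySize
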