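import Vale.Agent.P330.LS.Final

/-!
For every constant `ε < 1 / 10`, End-of-Line reduces in polynomial time to the problem of finding an
assignment that `ε`-satisfies all gates of a generalized circuit with linearly many gates, of
encoding length `O(N log N)`.
-/

namespace Vale.Agent.Results.P330.QuasiLinearSize

open Vale.Agent.P330.LS

theorem result : ∀ ε : ℝ, 0 < ε → ε < 1 / 10 →
    ∃ (R : EoL → GCirc) (D : EoL × List ℚ → List Bool) (C : ℕ), PolyTime R ∧ PolyTime D ∧
      ∀ I : EoL, I.Valid → (R I).WF ∧ (R I).gates.length ≤ C * len I ∧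
        len (R I) ≤ C * (len I * Nat.log 2 (len I)) ∧
        (∃ x, (R I).IsAssign x ∧ len x ≤ C * len (R I) ∧ (R I).violated ε x = 0) ∧
        ∀ x, (R I).IsAssign x → (R I).violated ε x = 0 → I.IsSol (D (I, x)) :=
  linear_size

end Vale.Agent.Results.P330.QuasiLinearSize
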