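import Vale.Agent.P330.S.Final

/-!
The PCP-for-PPAD conjecture with constant `ε` and `δ` and subexponential size `2 ^ O(N ^ (1 / k))`,
for every `k`. The reduction gets the instance `I` of End-of-Line and a number `t` in unary
(for example `t = 2 ^ ⌈N ^ (1 / k)⌉`), and has to work if `N ≤ (log₂ t) ^ k`, where `N` is the length
of the code of `I`.
-/

namespace Vale.Agent.Results.P330.Subexp

open Vale.Agent.P330

theorem result : ∀ k : ℕ, ∃ (ε δ : ℚ) (p : Polynomial ℕ) (R : EndOfLine × ℕ → GenCircuit)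
    (D : (EndOfLine × ℕ) × List ℚ → List Bool),
    0 < ε ∧ ε < 1 ∧ 0 < δ ∧ δ < 1 ∧ PolyTime padW circuitW R ∧ PolyTime padAsgW (fun v => v) D ∧
    ∀ (I : EndOfLine) (t : ℕ), (eolW I).length ≤ Nat.log 2 t ^ k →
      (∃ x, Acceptable ε δ p (R (I, t)) x) ∧
        ∀ x, Acceptable ε δ p (R (I, t)) x → I.IsSolution (D ((I, t), x)) :=
  S.Mach.subexpPCP

end Vale.Agent.Results.P330.Subexp
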